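import Mathlib
import Vale.Agent.P033.Multiplier

namespace Vale.Agent.Results.P033.WeakMultiplier

open Vale.Agent.P033

/-- Let `h : ZMod n → {1, -1}` be the first row of a circulant Hadamard matrix
`H i j = h (j - i)` of order `n`.  Suppose `h` has a weak multiplier `t`, that is
`h (t * j + c) = ε * h j` for all `j` (some shift `c`, some constant `ε`).
If some odd prime `p` divides `n`, say `n = p ^ e * m` with `p ∤ m`, and
`-t` is congruent to a power of `p` modulo `m`, we reach a contradiction: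
no such matrix exists. -/
theorem result (n : ℕ) [NeZero n] (h : ZMod n → ℤ)
    (hpm : ∀ j, h j = 1 ∨ h j = -1)
    (hH : (Matrix.of fun i j : ZMod n => h (j - i)) *
        (Matrix.of fun i j : ZMod n => h (j - i)).transpose
        = (n : ℤ) • (1 : Matrix (ZMod n) (ZMod n) ℤ))
    (t : ℤ) (c : ZMod n) (ε : ℤ) (hsym : ∀ j, h ((t : ZMod n) * j + c) = ε * h j)
    (p e m l : ℕ) (hp : p.Prime) (hp2 : p ≠ 2) (he : e ≠ 0) (hn : n = p ^ e * m)
    (hpm' : ¬ p ∣ m) (hl : (m : ℤ) ∣ t + (p : ℤ) ^ l) : False := by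
  have hP : ∀ d : ZMod n, d ≠ 0 → ∑ j, h j * h (j + d) = 0 := by
    intro d hd
    have h1 := congrFun (congrFun hH 0) (-d)
    rw [Matrix.mul_apply] at h1
    simp only [Matrix.transpose_apply, Matrix.of_apply, sub_zero, sub_neg_eq_add,
      Matrix.smul_apply, smul_eq_mul] at h1
    rw [h1, Matrix.one_apply_ne, mul_zero]
    intro h0
    exact hd (neg_eq_zero.1 h0.symm)
  set t' : ℕ := (t : ZMod n).val with ht'
  have hcast : (t' : ZMod n) = (t : ZMod n) := ZMod.natCast_zmod_val _
  have hsym' : ∀ j, h ((t' : ZMod n) * j + c) = ε * h j := by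
    intro j
    rw [hcast]
    exact hsym j
  have hl' : m ∣ t' + p ^ l := by
    have h1 : (((t' : ℕ) : ℤ) : ZMod n) = ((t : ℤ) : ZMod n) := by
      rw [Int.cast_natCast]
      exact hcast
    have h2 : (n : ℤ) ∣ t - (t' : ℤ) := ((ZMod.intCast_eq_intCast_iff_dvd_sub _ _ n).1 h1)
    have h3 : (m : ℤ) ∣ (n : ℤ) := by
      rw [hn]
      push_cast
      exact dvd_mul_left _ _
    have h4 : (m : ℤ) ∣ (t' : ℤ) + (p : ℤ) ^ l := by
      have : (t' : ℤ) + (p : ℤ) ^ l = (t + (p : ℤ) ^ l) - (t - (t' : ℤ)) := by ring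
      rw [this]
      exact dvd_sub hl (dvd_trans h3 h2)
    exact_mod_cast h4
  exact no_weak_multiplier_nat n h hpm hP t' c ε hsym' p e m l hp hp2 he hn hpm' hl'

end Vale.Agent.Results.P033.WeakMultiplier
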